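import Vale.Agent.H24.LipFree.Lift

/-!
# Approximation on compact sets

Uniformly bounded operators on the free space that fix enough evaluation functionals are
uniformly close to the identity on a given compact set.
-/

namespace Vale.Agent.H24

universe u

section

variable {M : Type u} [MetricSpace M] {o : M}

/-- For a compact subset `C` of the free space, a bound `lam` and `ε > 0` there is a finite set
`F ⊆ M` such that every operator of norm at most `lam` fixing the evaluation functionals at the
points of `F` moves each point of `C` by less than `ε`. -/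
theorem exists_finset_forall_approx (C : Set (LipFree M o)) (hC : IsCompact C) (lam ε : ℝ)
    (hlam : 0 ≤ lam) (hε : 0 < ε) :
    ∃ F : Finset M, ∀ T : LipFree M o →L[ℝ] LipFree M o, ‖T‖ ≤ lam →
      (∀ x ∈ F, T (diracF M o x) = diracF M o x) → ∀ u ∈ C, ‖T u - u‖ < ε := by
  classical
  have hlam1 : 0 < lam + 1 := by linarith
  set η : ℝ := ε / (2 * (lam + 1)) with hη_def
  have hη : 0 < η := div_pos hε (by linarith)
  obtain ⟨t, -, htfin, htcover⟩ := hC.finite_cover_balls hη
  have hex : ∀ c : LipFree M o, ∃ (F : Finset M) (v : LipFree M o), ‖c - v‖ < η ∧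
      ∀ T : LipFree M o →L[ℝ] LipFree M o,
        (∀ x ∈ F, T (diracF M o x) = diracF M o x) → T v = v :=
    fun c => exists_finite_approx c hη
  choose F v hv hT using hex
  refine ⟨htfin.toFinset.biUnion F, fun T hTnorm hTfix u hu => ?_⟩
  obtain ⟨c, hct, hcu⟩ := Set.mem_iUnion₂.mp (htcover hu)
  have hTv : T (v c) = v c := by
    refine hT c T fun x hx => hTfix x ?_
    exact Finset.mem_biUnion.mpr ⟨c, htfin.mem_toFinset.mpr hct, hx⟩
  have h1 : ‖u - v c‖ < 2 * η := by
    have h2 : ‖u - c‖ < η := by rwa [Metric.mem_ball, dist_eq_norm] at hcu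
    have h3 : u - v c = (u - c) + (c - v c) := by abel
    rw [h3]
    calc ‖(u - c) + (c - v c)‖ ≤ ‖u - c‖ + ‖c - v c‖ := norm_add_le _ _
      _ < 2 * η := by linarith [hv c]
  have h4 : T u - u = T (u - v c) - (u - v c) := by
    rw [map_sub, hTv]; abel
  rw [h4]
  calc ‖T (u - v c) - (u - v c)‖ ≤ ‖T (u - v c)‖ + ‖u - v c‖ := norm_sub_le _ _
    _ ≤ ‖T‖ * ‖u - v c‖ + ‖u - v c‖ := by gcongr; exact T.le_opNorm _
    _ ≤ lam * ‖u - v c‖ + ‖u - v c‖ := by gcongr
    _ = (lam + 1) * ‖u - v c‖ := by ring
    _ < (lam + 1) * (2 * η) := mul_lt_mul_of_pos_left h1 hlam1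
    _ = ε := by rw [hη_def]; field_simp

end

end Vale.Agent.H24
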