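import Vale.Agent.H24.LipFree.Defs

/-!
# Basic lemmas on `Lip0`, `dirac` and `LipFree`
-/

namespace Vale.Agent.H24

universe u v

section

variable {M : Type u} [MetricSpace M] {o : M}

namespace Lip0

theorem abs_sub_le_norm (f : Lip0 M o) (x y : M) : |f x - f y| ≤ ‖f‖ * dist x y :=
  abs_sub_le_lipConst f x y

theorem norm_le_of (f : Lip0 M o) {K : ℝ} (hK : 0 ≤ K)
    (h : ∀ x y, |f x - f y| ≤ K * dist x y) : ‖f‖ ≤ K :=
  lipConst_le f hK h

theorem coe_sub (f g : Lip0 M o) (x : M) : (f - g) x = f x - g x := rfl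

/-- Build an element of `Lip0 M o` from a function with a Lipschitz bound. -/
def ofFun (f : M → ℝ) (K : ℝ) (h : ∀ x y, |f x - f y| ≤ K * dist x y) (h0 : f o = 0) :
    Lip0 M o :=
  ⟨f, ⟨K, h⟩, h0⟩

theorem ofFun_apply (f : M → ℝ) (K : ℝ) (h : ∀ x y, |f x - f y| ≤ K * dist x y) (h0 : f o = 0)
    (x : M) : ofFun f K h h0 x = f x := rfl

theorem norm_ofFun_le (f : M → ℝ) (K : ℝ) (hK : 0 ≤ K)
    (h : ∀ x y, |f x - f y| ≤ K * dist x y) (h0 : f o = 0) : ‖ofFun f K h h0‖ ≤ K :=
  norm_le_of _ hK h

end Lip0

theorem dirac_apply (x : M) (f : Lip0 M o) : dirac M o x f = f x := rfl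

theorem dirac_base : dirac M o o = 0 := by
  ext f
  rw [dirac_apply, Lip0.map_base]
  rfl

theorem norm_dirac_sub_le (x y : M) : ‖dirac M o x - dirac M o y‖ ≤ dist x y := by
  refine ContinuousLinearMap.opNorm_le_bound _ dist_nonneg fun f => ?_
  rw [sub_apply, dirac_apply, dirac_apply, Real.norm_eq_abs, mul_comm]
  exact Lip0.abs_sub_le_norm f x y

theorem norm_dirac_le (x : M) : ‖dirac M o x‖ ≤ dist x o := by
  have h := norm_dirac_sub_le (o := o) x o
  rwa [dirac_base, sub_zero] at h

theorem dirac_mem (x : M) : dirac M o x ∈ lipFreeSubmodule M o :=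
  Submodule.le_topologicalClosure _ (Submodule.subset_span ⟨x, rfl⟩)

theorem isClosed_lipFreeSubmodule :
    IsClosed (lipFreeSubmodule M o : Set (Lip0 M o →L[ℝ] ℝ)) :=
  Submodule.isClosed_topologicalClosure _

variable (M o)

/-- The inclusion of the free space into the dual of `Lip0 M o`. -/
noncomputable def lipFreeIncl : LipFree M o →L[ℝ] (Lip0 M o →L[ℝ] ℝ) :=
  (lipFreeSubmodule M o).subtypeL

/-- The evaluation functional as an element of the free space. -/
noncomputable def diracF (x : M) : LipFree M o := ⟨dirac M o x, dirac_mem x⟩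

variable {M o}

theorem lipFreeIncl_apply (u : LipFree M o) : lipFreeIncl M o u = u.1 := rfl

theorem lipFreeIncl_mem (u : LipFree M o) : lipFreeIncl M o u ∈ lipFreeSubmodule M o := u.2

theorem norm_lipFreeIncl (u : LipFree M o) : ‖lipFreeIncl M o u‖ = ‖u‖ := rfl

theorem lipFreeIncl_injective : Function.Injective (lipFreeIncl M o) :=
  Subtype.val_injective

theorem lipFreeIncl_diracF (x : M) : lipFreeIncl M o (diracF M o x) = dirac M o x := rfl

theorem diracF_base : diracF M o o = 0 := Subtype.ext dirac_base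

theorem norm_diracF_sub_le (x y : M) : ‖diracF M o x - diracF M o y‖ ≤ dist x y :=
  norm_dirac_sub_le x y

theorem norm_diracF_le (x : M) : ‖diracF M o x‖ ≤ dist x o :=
  norm_dirac_le x

/-- Every element of the free space is a limit of finite combinations of evaluation
functionals. -/
theorem exists_finsupp_approx (u : LipFree M o) {ε : ℝ} (hε : 0 < ε) :
    ∃ c : M →₀ ℝ, ‖u - c.sum fun x a => a • diracF M o x‖ < ε := by
  have hu : lipFreeIncl M o u ∈ closure
      ((Submodule.span ℝ (Set.range (dirac M o)) : Submodule ℝ (Lip0 M o →L[ℝ] ℝ)) :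
        Set (Lip0 M o →L[ℝ] ℝ)) := by
    rw [← Submodule.topologicalClosure_coe]
    exact lipFreeIncl_mem u
  obtain ⟨v, hv, hdist⟩ := Metric.mem_closure_iff.mp hu ε hε
  obtain ⟨c, rfl⟩ := (Finsupp.mem_span_range_iff_exists_finsupp).mp hv
  refine ⟨c, ?_⟩
  rw [← norm_lipFreeIncl, map_sub, map_finsuppSum, ← dist_eq_norm]
  simpa only [map_smul, lipFreeIncl_diracF] using hdist

/-- Induction principle: a closed property that holds for all finite combinations of evaluation
functionals holds on the whole free space. -/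
theorem lipFree_induction {P : LipFree M o → Prop} (hclosed : IsClosed {u | P u})
    (hP : ∀ c : M →₀ ℝ, P (c.sum fun x a => a • diracF M o x)) (u : LipFree M o) : P u := by
  have h : u ∈ closure {u | P u} := by
    rw [Metric.mem_closure_iff]
    intro ε hε
    obtain ⟨c, hc⟩ := exists_finsupp_approx u hε
    exact ⟨_, hP c, by rwa [dist_eq_norm]⟩
  rwa [hclosed.closure_eq] at h

/-- Continuous linear maps on the free space that agree on evaluation functionals are equal. -/
theorem lipFree_ext {Y : Type v} [NormedAddCommGroup Y] [NormedSpace ℝ Y]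
    {T₁ T₂ : LipFree M o →L[ℝ] Y} (h : ∀ x, T₁ (diracF M o x) = T₂ (diracF M o x)) :
    T₁ = T₂ := by
  ext u
  refine lipFree_induction (P := fun u => T₁ u = T₂ u)
    (isClosed_eq T₁.continuous T₂.continuous) (fun c => ?_) u
  simp only [map_finsuppSum, map_smul, h]

/-- Every element of the free space is approximated by a finite combination `v` of evaluation
functionals; every operator fixing these finitely many functionals fixes `v`. -/
theorem exists_finite_approx (u : LipFree M o) {ε : ℝ} (hε : 0 < ε) :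
    ∃ (F : Finset M) (v : LipFree M o), ‖u - v‖ < ε ∧
      ∀ T : LipFree M o →L[ℝ] LipFree M o,
        (∀ x ∈ F, T (diracF M o x) = diracF M o x) → T v = v := by
  obtain ⟨c, hc⟩ := exists_finsupp_approx u hε
  refine ⟨c.support, _, hc, fun T hT => ?_⟩
  rw [Finsupp.sum, map_sum]
  refine Finset.sum_congr rfl fun x hx => ?_
  rw [map_smul, hT x hx]

end

end Vale.Agent.H24
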