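import Mathlib

/-!
# Logarithmic cutoff functions on a pointed metric space
-/

namespace Vale.Agent.H24

universe u

theorem cutoff_aux (r K : ℝ) (hr : 0 < r) (hK : 0 < K) (s t : ℝ) (hs : 0 ≤ s) (hst : s ≤ t) :
    |max 0 (min 1 (1 - (Real.log (max s r) - Real.log r) / K))
      - max 0 (min 1 (1 - (Real.log (max t r) - Real.log r) / K))| * s ≤ (t - s) / K := by
  have har : r ≤ max s r := le_max_right _ _
  have ha0 : 0 < max s r := lt_of_lt_of_le hr har
  have hab : max s r ≤ max t r := max_le_max hst le_rfl
  have hb0 : 0 < max t r := lt_of_lt_of_le ha0 hab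
  have hsa : s ≤ max s r := le_max_left _ _
  have hba : max t r - max s r ≤ t - s := by
    rcases le_total s r with h | h
    · rcases le_total t r with h' | h'
      · rw [max_eq_right h, max_eq_right h']; linarith
      · rw [max_eq_right h, max_eq_left h']; linarith
    · have h' : r ≤ t := h.trans hst
      rw [max_eq_left h, max_eq_left h']
  generalize max s r = a at *
  generalize max t r = b at *
  have hlog : Real.log b - Real.log a ≤ (b - a) / a := by
    have h1 : Real.log (b / a) ≤ b / a - 1 := Real.log_le_sub_one_of_pos (div_pos hb0 ha0)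
    rw [Real.log_div hb0.ne' ha0.ne'] at h1
    have h2 : b / a - 1 = (b - a) / a := by field_simp
    linarith
  have hlog0 : 0 ≤ Real.log b - Real.log a := sub_nonneg.mpr (Real.log_le_log ha0 hab)
  have hdiv0 : 0 ≤ (Real.log b - Real.log a) / K := div_nonneg hlog0 hK.le
  have hclamp : |max 0 (min 1 (1 - (Real.log a - Real.log r) / K))
      - max 0 (min 1 (1 - (Real.log b - Real.log r) / K))| ≤ (Real.log b - Real.log a) / K := by
    calc |max 0 (min 1 (1 - (Real.log a - Real.log r) / K))
          - max 0 (min 1 (1 - (Real.log b - Real.log r) / K))|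
        ≤ |min 1 (1 - (Real.log a - Real.log r) / K)
            - min 1 (1 - (Real.log b - Real.log r) / K)| := by
          rw [max_comm 0, max_comm 0]; exact abs_max_sub_max_le_abs _ _ _
      _ ≤ max |(1 : ℝ) - 1| |(1 - (Real.log a - Real.log r) / K)
            - (1 - (Real.log b - Real.log r) / K)| := abs_min_sub_min_le_max _ _ _ _
      _ = (Real.log b - Real.log a) / K := by
          have h5 : (1 - (Real.log a - Real.log r) / K) - (1 - (Real.log b - Real.log r) / K)
              = (Real.log b - Real.log a) / K := by ring
          rw [h5, sub_self, abs_zero, abs_of_nonneg hdiv0, max_eq_right hdiv0]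
  calc |max 0 (min 1 (1 - (Real.log a - Real.log r) / K))
          - max 0 (min 1 (1 - (Real.log b - Real.log r) / K))| * s
      ≤ (Real.log b - Real.log a) / K * s := mul_le_mul_of_nonneg_right hclamp hs
    _ ≤ (Real.log b - Real.log a) / K * a := mul_le_mul_of_nonneg_left hsa hdiv0
    _ ≤ ((b - a) / a) / K * a := by gcongr
    _ = (b - a) / K := by field_simp
    _ ≤ (t - s) / K := by gcongr

/-- A logarithmic cutoff: equal to `1` on the ball of radius `r`, to `0` outside the ball of
radius `r * exp K`, with values in `[0, 1]` and slowly varying in the sense that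
`|w x - w y| * min (dist x o) (dist y o) ≤ dist x y / K`. -/
theorem exists_cutoff (M : Type u) [MetricSpace M] (o : M) (r K : ℝ) (hr : 0 < r) (hK : 0 < K) :
    ∃ w : M → ℝ, (∀ x, 0 ≤ w x) ∧ (∀ x, w x ≤ 1) ∧ (∀ x, dist x o ≤ r → w x = 1) ∧
      (∀ x, r * Real.exp K ≤ dist x o → w x = 0) ∧
      (∀ x y, |w x - w y| * min (dist x o) (dist y o) ≤ dist x y / K) := by
  refine ⟨fun x => max 0 (min 1 (1 - (Real.log (max (dist x o) r) - Real.log r) / K)),
    fun x => le_max_left _ _, fun x => max_le zero_le_one (min_le_left _ _), fun x hx => ?_,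
    fun x hx => ?_, fun x y => ?_⟩
  · simp [max_eq_right hx]
  · have h0 : r ≤ r * Real.exp K := by
      have := Real.add_one_le_exp K
      nlinarith
    have h1 : r ≤ dist x o := h0.trans hx
    have h2 : Real.log r + K ≤ Real.log (dist x o) := by
      have h := Real.log_le_log (mul_pos hr (Real.exp_pos K)) hx
      rwa [Real.log_mul hr.ne' (Real.exp_pos K).ne', Real.log_exp] at h
    have h3 : 1 ≤ (Real.log (dist x o) - Real.log r) / K := by
      rw [le_div_iff₀ hK]; linarith
    show max 0 (min 1 (1 - (Real.log (max (dist x o) r) - Real.log r) / K)) = 0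
    rw [max_eq_left h1]
    exact max_eq_left ((min_le_right _ _).trans (by linarith))
  · show |max 0 (min 1 (1 - (Real.log (max (dist x o) r) - Real.log r) / K))
      - max 0 (min 1 (1 - (Real.log (max (dist y o) r) - Real.log r) / K))|
        * min (dist x o) (dist y o) ≤ dist x y / K
    rcases le_total (dist x o) (dist y o) with h | h
    · rw [min_eq_left h]
      refine (cutoff_aux r K hr hK _ _ dist_nonneg h).trans ?_
      gcongr
      linarith [dist_triangle y x o, dist_comm x y]
    · rw [min_eq_right h, abs_sub_comm]
      refine (cutoff_aux r K hr hK _ _ dist_nonneg h).trans ?_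
      gcongr
      linarith [dist_triangle x y o]

end Vale.Agent.H24
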