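import Vale.Agent.H24.LipFree.Approx
import Vale.Agent.H24.LipFree.Cutoff

/-!
# The bounded approximation property for free spaces over coarsely proper uniformly discrete
metric spaces
-/

namespace Vale.Agent.H24

universe u

section

variable {M : Type u} [MetricSpace M] {o : M}

/-- The Lipschitz estimate for the map `x ↦ w x • δ (ρ x)`, where `w` is a slowly varying
cutoff supported in the ball of radius `R` and `ρ` moves the points of that ball by at most
`D`, on a `θ`-separated space. -/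
theorem norm_smul_diracF_sub_le (θ D K R : ℝ) (hθ : 0 < θ) (hD : 0 ≤ D) (hK : 0 < K)
    (hsep : ∀ x y : M, x ≠ y → θ ≤ dist x y)
    (w : M → ℝ) (hw0 : ∀ x, 0 ≤ w x) (hw1 : ∀ x, w x ≤ 1)
    (hwR : ∀ x, R ≤ dist x o → w x = 0)
    (hwlip : ∀ x y, |w x - w y| * min (dist x o) (dist y o) ≤ dist x y / K)
    (ρ : M → M) (hρo : ρ o = o) (hρ : ∀ x, dist x o < R → dist (ρ x) x ≤ D) (x y : M) :
    ‖w x • diracF M o (ρ x) - w y • diracF M o (ρ y)‖
      ≤ ((1 + 2 * D / θ) + (1 + D / θ) / K) * dist x y := by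
  wlog h : dist y o ≤ dist x o generalizing x y with H
  · have h' : dist x o ≤ dist y o := le_of_not_ge h
    have h2 := H y x h'
    rw [norm_sub_rev, dist_comm]
    exact h2
  have hDθ : 0 ≤ D / θ := div_nonneg hD hθ.le
  rcases eq_or_ne x y with rfl | hxy
  · simp
  have hθxy : θ ≤ dist x y := hsep x y hxy
  have hDle : ∀ t : ℝ, θ ≤ t → D ≤ D / θ * t := fun t ht => by
    calc D = D / θ * θ := by field_simp
      _ ≤ D / θ * t := mul_le_mul_of_nonneg_left ht hDθ
  have e : w x • diracF M o (ρ x) - w y • diracF M o (ρ y)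
      = w x • (diracF M o (ρ x) - diracF M o (ρ y)) + (w x - w y) • diracF M o (ρ y) := by
    rw [smul_sub, sub_smul]; abel
  have term1 : ‖w x • (diracF M o (ρ x) - diracF M o (ρ y))‖ ≤ (1 + 2 * D / θ) * dist x y := by
    rw [norm_smul, Real.norm_eq_abs, abs_of_nonneg (hw0 x)]
    by_cases hxR : R ≤ dist x o
    · rw [hwR x hxR, zero_mul]; positivity
    · rw [not_le] at hxR
      have hyR : dist y o < R := lt_of_le_of_lt h hxR
      have h1 : dist (ρ x) (ρ y) ≤ dist x y + 2 * D := by
        have h3 := hρ x hxR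
        have h4 := hρ y hyR
        rw [dist_comm] at h4
        have h5 := dist_triangle4 (ρ x) x y (ρ y)
        linarith
      have h2 := hDle (dist x y) hθxy
      calc w x * ‖diracF M o (ρ x) - diracF M o (ρ y)‖ ≤ 1 * dist (ρ x) (ρ y) :=
            mul_le_mul (hw1 x) (norm_diracF_sub_le _ _) (norm_nonneg _) zero_le_one
        _ ≤ (1 + 2 * D / θ) * dist x y := by
            have h6 : (1 + 2 * D / θ) * dist x y = dist x y + 2 * (D / θ * dist x y) := by ring
            rw [h6]; linarith
  have term2 : ‖(w x - w y) • diracF M o (ρ y)‖ ≤ (1 + D / θ) / K * dist x y := by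
    rw [norm_smul, Real.norm_eq_abs]
    by_cases hyR : R ≤ dist y o
    · have hxR : R ≤ dist x o := hyR.trans h
      rw [hwR x hxR, hwR y hyR, sub_zero, abs_zero, zero_mul]; positivity
    · rw [not_le] at hyR
      rcases eq_or_ne y o with rfl | hyo
      · rw [hρo, diracF_base, norm_zero, mul_zero]; positivity
      · have hθy : θ ≤ dist y o := hsep y o hyo
        have h3 : ‖diracF M o (ρ y)‖ ≤ (1 + D / θ) * dist y o := by
          have h5 := norm_diracF_le (o := o) (ρ y)
          have h6 := dist_triangle (ρ y) y o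
          have h7 := hρ y hyR
          have h8 := hDle (dist y o) hθy
          have h9 : (1 + D / θ) * dist y o = dist y o + D / θ * dist y o := by ring
          rw [h9]; linarith
        have h4 := hwlip x y
        rw [min_eq_right h] at h4
        calc |w x - w y| * ‖diracF M o (ρ y)‖ ≤ |w x - w y| * ((1 + D / θ) * dist y o) :=
              mul_le_mul_of_nonneg_left h3 (abs_nonneg _)
          _ = (1 + D / θ) * (|w x - w y| * dist y o) := by ring
          _ ≤ (1 + D / θ) * (dist x y / K) := mul_le_mul_of_nonneg_left h4 (by linarith)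
          _ = (1 + D / θ) / K * dist x y := by ring
  rw [e]
  calc ‖w x • (diracF M o (ρ x) - diracF M o (ρ y)) + (w x - w y) • diracF M o (ρ y)‖
      ≤ ‖w x • (diracF M o (ρ x) - diracF M o (ρ y))‖ + ‖(w x - w y) • diracF M o (ρ y)‖ :=
        norm_add_le _ _
    _ ≤ (1 + 2 * D / θ) * dist x y + (1 + D / θ) / K * dist x y := add_le_add term1 term2
    _ = ((1 + 2 * D / θ) + (1 + D / θ) / K) * dist x y := by ring

end

/-- **Main theorem.** Let `M` be a metric space which is uniformly discrete (distinct points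
are at distance at least `θ > 0`) and coarsely proper at scale `D` (every ball centred at the
base point is covered by finitely many closed balls of radius `D`). Then the Lipschitz-free
space of `M` has the `lam`-bounded approximation property for every `lam > 1 + 2 * D / θ`. -/
theorem hasBAP_of_coarselyProper (M : Type u) [MetricSpace M] (o : M) (θ D : ℝ) (hθ : 0 < θ)
    (hD : 0 ≤ D) (hsep : ∀ x y : M, x ≠ y → θ ≤ dist x y)
    (hcp : ∀ R : ℝ, ∃ S : Finset M, ∀ x : M, dist x o ≤ R → ∃ s ∈ S, dist x s ≤ D)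
    (lam : ℝ) (hlam : 1 + 2 * D / θ < lam) : HasBAP lam (LipFree M o) := by
  classical
  intro C hC ε hε
  have hDθ : 0 ≤ D / θ := div_nonneg hD hθ.le
  have h2Dθ : 2 * D / θ = 2 * (D / θ) := by ring
  have hlam0 : 0 ≤ lam := by linarith
  obtain ⟨F, hF⟩ := exists_finset_forall_approx C hC lam ε hlam0 hε
  have hsum : 0 ≤ ∑ x ∈ F, dist x o := Finset.sum_nonneg fun _ _ => dist_nonneg
  obtain ⟨r, hr_def⟩ : ∃ r : ℝ, r = 1 + ∑ x ∈ F, dist x o := ⟨_, rfl⟩
  have hr : 0 < r := by linarith
  have hrF : ∀ x ∈ F, dist x o ≤ r := fun x hx => by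
    have h1 := Finset.single_le_sum (f := fun x => dist x o) (fun _ _ => dist_nonneg) hx
    have h2 : dist x o ≤ ∑ x ∈ F, dist x o := h1
    linarith
  obtain ⟨K, hK_def⟩ : ∃ K : ℝ, K = (1 + D / θ) / (lam - (1 + 2 * D / θ)) := ⟨_, rfl⟩
  have hden : 0 < lam - (1 + 2 * D / θ) := by linarith
  have hnum : 0 < 1 + D / θ := by linarith
  have hK : 0 < K := by rw [hK_def]; exact div_pos hnum hden
  have hKeq : (1 + D / θ) / K = lam - (1 + 2 * D / θ) := by
    rw [hK_def]; field_simp
  obtain ⟨w, hw0, hw1, hwr, hwR, hwlip⟩ := exists_cutoff M o r K hr hK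
  obtain ⟨S, hS⟩ := hcp (r * Real.exp K)
  have hex : ∀ x : M, ∃ s : M, dist x o ≤ r * Real.exp K → s ∈ S ∧ dist x s ≤ D := fun x => by
    by_cases h : dist x o ≤ r * Real.exp K
    · obtain ⟨s, hs1, hs2⟩ := hS x h
      exact ⟨s, fun _ => ⟨hs1, hs2⟩⟩
    · exact ⟨o, fun h' => absurd h' h⟩
  choose s hs using hex
  obtain ⟨ρ, hρ_def⟩ : ∃ ρ : M → M, ρ = fun x => if x ∈ insert o F then x else s x := ⟨_, rfl⟩
  have hρo : ρ o = o := by rw [hρ_def]; simp
  have hρF : ∀ x ∈ F, ρ x = x := fun x hx => by rw [hρ_def]; simp [hx]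
  have hρD : ∀ x, dist x o < r * Real.exp K → dist (ρ x) x ≤ D := fun x hx => by
    by_cases hxF : x ∈ insert o F
    · rw [hρ_def]; simp only [if_pos hxF, dist_self]; exact hD
    · rw [hρ_def]; simp only [if_neg hxF]; rw [dist_comm]; exact (hs x hx.le).2
  have hρmem : ∀ x, dist x o < r * Real.exp K → ρ x ∈ insert o F ∪ S := fun x hx => by
    by_cases hxF : x ∈ insert o F
    · rw [hρ_def]; simp only [if_pos hxF]; exact Finset.mem_union_left _ hxF
    · rw [hρ_def]; simp only [if_neg hxF]; exact Finset.mem_union_right _ (hs x hx.le).1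
  obtain ⟨φ, hφ_def⟩ : ∃ φ : M → LipFree M o, φ = fun x => w x • diracF M o (ρ x) := ⟨_, rfl⟩
  have hφ0 : φ o = 0 := by rw [hφ_def]; simp only [hρo, diracF_base, smul_zero]
  have hφ : ∀ x y, ‖φ x - φ y‖ ≤ lam * dist x y := fun x y => by
    have h := norm_smul_diracF_sub_le θ D K (r * Real.exp K) hθ hD hK hsep w hw0 hw1 hwR hwlip
      ρ hρo hρD x y
    rw [hKeq] at h
    have h2 : (1 + 2 * D / θ) + (lam - (1 + 2 * D / θ)) = lam := by ring
    rw [h2] at h
    rw [hφ_def]
    exact h
  have hV : FiniteDimensional ℝ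
      (Submodule.span ℝ (diracF M o '' (↑(insert o F ∪ S) : Set M)) :
        Submodule ℝ (LipFree M o)) :=
    FiniteDimensional.span_of_finite ℝ ((Finset.finite_toSet _).image _)
  refine ⟨lift φ lam hlam0 hφ0 hφ,
    finiteDimensional_range_of_forall_mem (lift φ lam hlam0 hφ0 hφ)
      (Submodule.span ℝ (diracF M o '' (↑(insert o F ∪ S) : Set M))) (fun x => ?_),
    norm_lift_le φ lam hlam0 hφ0 hφ,
    hF (lift φ lam hlam0 hφ0 hφ) (norm_lift_le φ lam hlam0 hφ0 hφ) (fun x hx => ?_)⟩
  · rw [lift_diracF, hφ_def]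
    by_cases hxR : r * Real.exp K ≤ dist x o
    · simp only [hwR x hxR, zero_smul]; exact Submodule.zero_mem _
    · rw [not_le] at hxR
      exact Submodule.smul_mem _ _ (Submodule.subset_span ⟨ρ x, hρmem x hxR, rfl⟩)
  · rw [lift_diracF, hφ_def]
    simp only [hwr x (hrF x hx), hρF x hx, one_smul]

end Vale.Agent.H24
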