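import Mathlib

/-!
# Lipschitz-free spaces and the bounded approximation property: definitions

For a metric space `M` with base point `o`:

* `Lip0 M o` is the real Banach space of Lipschitz functions `f : M → ℝ` with `f o = 0`,
  normed by the Lipschitz constant;
* `dirac M o x` is the evaluation functional at `x`, an element of the dual of `Lip0 M o`;
* `LipFree M o` is the Lipschitz-free space: the closed linear span of the evaluation functionals
  in the dual of `Lip0 M o`, with the dual norm (`lipFreeSubmodule M o` is the same span as a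
  submodule of the dual);
* `HasBAP lam X` is the `lam`-bounded approximation property of a real normed space `X`.
-/

namespace Vale.Agent.H24

universe u

section Lip0

variable (M : Type u) [MetricSpace M] (o : M)

/-- Lipschitz functions `M → ℝ` vanishing at the base point `o`, as a linear subspace of the
space of all functions `M → ℝ`. -/
def lip0Submodule : Submodule ℝ (M → ℝ) where
  carrier := {f | (∃ K : ℝ, ∀ x y, |f x - f y| ≤ K * dist x y) ∧ f o = 0}
  zero_mem' := ⟨⟨0, fun x y => by simp⟩, rfl⟩
  add_mem' := by
    rintro f g ⟨⟨K, hK⟩, hf⟩ ⟨⟨L, hL⟩, hg⟩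
    refine ⟨⟨K + L, fun x y => ?_⟩, by simp [hf, hg]⟩
    have h1 := hK x y
    have h2 := hL x y
    have h3 : (f + g) x - (f + g) y = (f x - f y) + (g x - g y) := by
      simp only [Pi.add_apply]; ring
    rw [h3]
    calc |(f x - f y) + (g x - g y)| ≤ |f x - f y| + |g x - g y| := abs_add_le _ _
      _ ≤ (K + L) * dist x y := by linarith
  smul_mem' := by
    rintro c f ⟨⟨K, hK⟩, hf⟩
    refine ⟨⟨|c| * K, fun x y => ?_⟩, by simp [hf]⟩
    have h3 : (c • f) x - (c • f) y = c * (f x - f y) := by
      simp only [Pi.smul_apply, smul_eq_mul]; ring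
    rw [h3, abs_mul, mul_assoc]
    exact mul_le_mul_of_nonneg_left (hK x y) (abs_nonneg c)

/-- The space `Lip₀(M)` of Lipschitz functions `f : M → ℝ` with `f o = 0`. -/
def Lip0 : Type u := ↥(lip0Submodule M o)

namespace Lip0

instance : CoeFun (Lip0 M o) (fun _ => M → ℝ) := ⟨fun f => f.1⟩

/-- The vector space operations of `Lip0 M o` are the pointwise ones, inherited from `M → ℝ`. -/
@[reducible] def addCommGroupAux : AddCommGroup (Lip0 M o) :=
  Submodule.addCommGroup (lip0Submodule M o)

/-- The vector space operations of `Lip0 M o` are the pointwise ones, inherited from `M → ℝ`. -/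
@[reducible] def moduleAux : @Module ℝ (Lip0 M o) _ (addCommGroupAux M o).toAddCommMonoid :=
  Submodule.module (lip0Submodule M o)

variable {M o}

/-- The Lipschitz constant of `f`: the least `K ≥ 0` with `|f x - f y| ≤ K * dist x y`. -/
noncomputable def lipConst (f : Lip0 M o) : ℝ :=
  sInf {K : ℝ | 0 ≤ K ∧ ∀ x y, |f x - f y| ≤ K * dist x y}

theorem lipConst_set_nonempty (f : Lip0 M o) :
    {K : ℝ | 0 ≤ K ∧ ∀ x y, |f x - f y| ≤ K * dist x y}.Nonempty := by
  obtain ⟨⟨K, hK⟩, -⟩ := f.2
  refine ⟨max K 0, le_max_right _ _, fun x y => (hK x y).trans ?_⟩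
  exact mul_le_mul_of_nonneg_right (le_max_left _ _) dist_nonneg

theorem lipConst_nonneg (f : Lip0 M o) : 0 ≤ lipConst f :=
  le_csInf (lipConst_set_nonempty f) fun _ hK => hK.1

theorem lipConst_le (f : Lip0 M o) {K : ℝ} (hK : 0 ≤ K)
    (h : ∀ x y, |f x - f y| ≤ K * dist x y) : lipConst f ≤ K :=
  csInf_le ⟨0, fun _ hL => hL.1⟩ ⟨hK, h⟩

theorem abs_sub_le_lipConst (f : Lip0 M o) (x y : M) :
    |f x - f y| ≤ lipConst f * dist x y := by
  rcases eq_or_ne x y with rfl | hxy
  · simp
  · have hd : 0 < dist x y := dist_pos.mpr hxy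
    rw [← div_le_iff₀ hd]
    refine le_csInf (lipConst_set_nonempty f) fun K hK => ?_
    rw [div_le_iff₀ hd]
    exact hK.2 x y

theorem map_base (f : Lip0 M o) : f o = 0 := f.2.2

theorem ext {f g : Lip0 M o} (h : ∀ x, f x = g x) : f = g :=
  Subtype.ext (funext h)

variable (M o)

section

attribute [local instance] addCommGroupAux moduleAux

/-- The Lipschitz constant is a norm on `Lip0 M o`. -/
noncomputable def lipNorm : AddGroupNorm (Lip0 M o) where
  toFun := lipConst
  map_zero' := le_antisymm (lipConst_le 0 le_rfl fun x y => by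
    have h0 : ∀ z, (0 : Lip0 M o) z = 0 := fun _ => rfl
    simp [h0]) (lipConst_nonneg 0)
  add_le' f g := by
    refine lipConst_le (f + g) (add_nonneg (lipConst_nonneg f) (lipConst_nonneg g)) fun x y => ?_
    have h1 := abs_sub_le_lipConst f x y
    have h2 := abs_sub_le_lipConst g x y
    have h3 : (f + g) x - (f + g) y = (f x - f y) + (g x - g y) := by
      have h0 : ∀ z, (f + g) z = f z + g z := fun _ => rfl
      rw [h0, h0]; ring
    rw [h3]
    calc |(f x - f y) + (g x - g y)| ≤ |f x - f y| + |g x - g y| := abs_add_le _ _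
      _ ≤ (lipConst f + lipConst g) * dist x y := by linarith
  neg' f := by
    have key : ∀ g : Lip0 M o, lipConst (-g) ≤ lipConst g := fun g =>
      lipConst_le (-g) (lipConst_nonneg g) fun x y => by
        have h0 : ∀ z, (-g) z = -g z := fun _ => rfl
        have h3 : (-g) x - (-g) y = -(g x - g y) := by rw [h0, h0]; ring
        rw [h3, abs_neg]
        exact abs_sub_le_lipConst g x y
    refine le_antisymm (key f) ?_
    have h := key (-f)
    rwa [neg_neg] at h
  eq_zero_of_map_eq_zero' f hf := by
    refine ext fun x => ?_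
    have h := abs_sub_le_lipConst f x o
    rw [hf, zero_mul, map_base, sub_zero] at h
    exact abs_nonpos_iff.mp h

theorem lipConst_smul_le (c : ℝ) (f : Lip0 M o) : lipConst (c • f) ≤ ‖c‖ * lipConst f := by
  refine lipConst_le (c • f) (mul_nonneg (norm_nonneg c) (lipConst_nonneg f)) fun x y => ?_
  have h0 : ∀ z, (c • f) z = c * f z := fun _ => rfl
  have h3 : (c • f) x - (c • f) y = c * (f x - f y) := by
    rw [h0, h0]; ring
  rw [h3, abs_mul, mul_assoc, Real.norm_eq_abs]
  exact mul_le_mul_of_nonneg_left (abs_sub_le_lipConst f x y) (abs_nonneg c)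

end

/-- `Lip0 M o` is a normed group: pointwise operations, norm the Lipschitz constant. -/
noncomputable instance : NormedAddCommGroup (Lip0 M o) :=
  @AddGroupNorm.toNormedAddCommGroup (Lip0 M o) (addCommGroupAux M o) (lipNorm M o)

/-- `Lip0 M o` is a real normed space: pointwise operations, norm the Lipschitz constant. -/
noncomputable instance : NormedSpace ℝ (Lip0 M o) :=
  { moduleAux M o with
    norm_smul_le := fun c f => lipConst_smul_le M o c f }

variable {M o}

theorem norm_def (f : Lip0 M o) : ‖f‖ = lipConst f := rfl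

theorem coe_add (f g : Lip0 M o) (x : M) : (f + g) x = f x + g x := rfl

theorem coe_neg (f : Lip0 M o) (x : M) : (-f) x = -f x := rfl

theorem coe_zero (x : M) : (0 : Lip0 M o) x = 0 := rfl

theorem coe_smul (c : ℝ) (f : Lip0 M o) (x : M) : (c • f) x = c * f x := rfl

end Lip0

/-- The evaluation functional `f ↦ f x`, as an element of the dual Banach space of `Lip0 M o`. -/
noncomputable def dirac (x : M) : Lip0 M o →L[ℝ] ℝ :=
  LinearMap.mkContinuous
    { toFun := fun f => f x
      map_add' := fun _ _ => rfl
      map_smul' := fun _ _ => rfl }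
    (dist x o) fun f => by
      have h := Lip0.abs_sub_le_lipConst f x o
      rw [Lip0.map_base, sub_zero] at h
      rw [Real.norm_eq_abs, mul_comm]
      exact h

/-- The closed linear span of the evaluation functionals in the dual Banach space of
`Lip0 M o`. -/
noncomputable def lipFreeSubmodule : Submodule ℝ (Lip0 M o →L[ℝ] ℝ) :=
  (Submodule.span ℝ (Set.range (dirac M o))).topologicalClosure

/-- The Lipschitz-free space `F(M)`: the closed linear span of the evaluation functionals in the
dual Banach space of `Lip0 M o`, with the norm inherited from the dual. -/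
def LipFree : Type u := ↥(lipFreeSubmodule M o)

noncomputable instance : NormedAddCommGroup (LipFree M o) :=
  Submodule.normedAddCommGroup (lipFreeSubmodule M o)

noncomputable instance : NormedSpace ℝ (LipFree M o) :=
  Submodule.normedSpace (lipFreeSubmodule M o)

end Lip0

/-- The `lam`-bounded approximation property of a real normed space `X`: for every norm-compact
`C ⊆ X` and every `ε > 0` there is a bounded finite-rank linear operator `T : X → X` with
`‖T‖ ≤ lam` and `‖T u - u‖ < ε` for all `u ∈ C`. -/
def HasBAP (lam : ℝ) (X : Type u) [NormedAddCommGroup X] [NormedSpace ℝ X] : Prop :=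
  ∀ C : Set X, IsCompact C → ∀ ε : ℝ, 0 < ε →
    ∃ T : X →L[ℝ] X, FiniteDimensional ℝ (LinearMap.range (T : X →ₗ[ℝ] X)) ∧ ‖T‖ ≤ lam ∧
      ∀ u ∈ C, ‖T u - u‖ < ε

end Vale.Agent.H24
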