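import Vale.Agent.H24.LipFree.Basic

/-!
# The universal property of the Lipschitz-free space

A Lipschitz map `φ : M → F(N)` with `φ o = 0` extends to a bounded linear operator
`F(M) → F(N)` of norm at most the Lipschitz constant of `φ`.
-/

namespace Vale.Agent.H24

universe u v w

section

variable {M : Type u} [MetricSpace M] {o : M} {N : Type v} [MetricSpace N] {o' : N}

/-- The function `x ↦ φ x f`, as an element of `Lip0 M o`, for `φ : M → F(N)` Lipschitz. -/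
noncomputable def liftPreFun (φ : M → LipFree N o') (L : ℝ) (h0 : φ o = 0)
    (hφ : ∀ x y, ‖φ x - φ y‖ ≤ L * dist x y) (f : Lip0 N o') : Lip0 M o :=
  Lip0.ofFun (fun x => lipFreeIncl N o' (φ x) f) (L * ‖f‖)
    (fun x y => by
      have h1 : lipFreeIncl N o' (φ x) f - lipFreeIncl N o' (φ y) f
          = lipFreeIncl N o' (φ x - φ y) f := by
        rw [map_sub]; rfl
      rw [h1]
      calc |lipFreeIncl N o' (φ x - φ y) f| = ‖lipFreeIncl N o' (φ x - φ y) f‖ :=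
            (Real.norm_eq_abs _).symm
        _ ≤ ‖lipFreeIncl N o' (φ x - φ y)‖ * ‖f‖ := ContinuousLinearMap.le_opNorm _ _
        _ = ‖φ x - φ y‖ * ‖f‖ := by rw [norm_lipFreeIncl]
        _ ≤ L * dist x y * ‖f‖ := mul_le_mul_of_nonneg_right (hφ x y) (norm_nonneg f)
        _ = L * ‖f‖ * dist x y := by ring)
    (by rw [h0, map_zero]; rfl)

theorem liftPreFun_apply (φ : M → LipFree N o') (L : ℝ) (h0 : φ o = 0)
    (hφ : ∀ x y, ‖φ x - φ y‖ ≤ L * dist x y) (f : Lip0 N o') (x : M) :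
    liftPreFun φ L h0 hφ f x = lipFreeIncl N o' (φ x) f := rfl

theorem norm_liftPreFun_le (φ : M → LipFree N o') (L : ℝ) (hL : 0 ≤ L) (h0 : φ o = 0)
    (hφ : ∀ x y, ‖φ x - φ y‖ ≤ L * dist x y) (f : Lip0 N o') :
    ‖liftPreFun φ L h0 hφ f‖ ≤ L * ‖f‖ :=
  Lip0.norm_ofFun_le _ _ (mul_nonneg hL (norm_nonneg f)) _ _

/-- The operator `Lip0 N o' → Lip0 M o`, `f ↦ (x ↦ φ x f)`, induced by a Lipschitz map `φ` from
`M` to the free space of `N`. -/
noncomputable def liftPre (φ : M → LipFree N o') (L : ℝ) (hL : 0 ≤ L) (h0 : φ o = 0)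
    (hφ : ∀ x y, ‖φ x - φ y‖ ≤ L * dist x y) : Lip0 N o' →L[ℝ] Lip0 M o :=
  LinearMap.mkContinuous
    { toFun := liftPreFun φ L h0 hφ
      map_add' := fun f g => Lip0.ext fun x => by
        rw [Lip0.coe_add, liftPreFun_apply, liftPreFun_apply, liftPreFun_apply, map_add]
      map_smul' := fun c f => Lip0.ext fun x => by
        rw [RingHom.id_apply, Lip0.coe_smul, liftPreFun_apply, liftPreFun_apply, map_smul,
          smul_eq_mul] }
    L (norm_liftPreFun_le φ L hL h0 hφ)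

theorem liftPre_apply (φ : M → LipFree N o') (L : ℝ) (hL : 0 ≤ L) (h0 : φ o = 0)
    (hφ : ∀ x y, ‖φ x - φ y‖ ≤ L * dist x y) (f : Lip0 N o') (x : M) :
    liftPre φ L hL h0 hφ f x = lipFreeIncl N o' (φ x) f := rfl

theorem norm_liftPre_le (φ : M → LipFree N o') (L : ℝ) (hL : 0 ≤ L) (h0 : φ o = 0)
    (hφ : ∀ x y, ‖φ x - φ y‖ ≤ L * dist x y) : ‖liftPre φ L hL h0 hφ‖ ≤ L :=
  LinearMap.mkContinuous_norm_le _ hL _

/-- The transpose of `liftPre`, between the dual spaces. -/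
noncomputable def liftDual (φ : M → LipFree N o') (L : ℝ) (hL : 0 ≤ L) (h0 : φ o = 0)
    (hφ : ∀ x y, ‖φ x - φ y‖ ≤ L * dist x y) :
    (Lip0 M o →L[ℝ] ℝ) →L[ℝ] (Lip0 N o' →L[ℝ] ℝ) :=
  (ContinuousLinearMap.compL ℝ (Lip0 N o') (Lip0 M o) ℝ).flip (liftPre φ L hL h0 hφ)

theorem liftDual_apply (φ : M → LipFree N o') (L : ℝ) (hL : 0 ≤ L) (h0 : φ o = 0)
    (hφ : ∀ x y, ‖φ x - φ y‖ ≤ L * dist x y) (ψ : Lip0 M o →L[ℝ] ℝ) :
    liftDual φ L hL h0 hφ ψ = ψ.comp (liftPre φ L hL h0 hφ) := rfl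

theorem liftDual_dirac (φ : M → LipFree N o') (L : ℝ) (hL : 0 ≤ L) (h0 : φ o = 0)
    (hφ : ∀ x y, ‖φ x - φ y‖ ≤ L * dist x y) (x : M) :
    liftDual φ L hL h0 hφ (dirac M o x) = lipFreeIncl N o' (φ x) := by
  ext f
  rfl

theorem norm_liftDual_apply_le (φ : M → LipFree N o') (L : ℝ) (hL : 0 ≤ L) (h0 : φ o = 0)
    (hφ : ∀ x y, ‖φ x - φ y‖ ≤ L * dist x y) (ψ : Lip0 M o →L[ℝ] ℝ) :
    ‖liftDual φ L hL h0 hφ ψ‖ ≤ L * ‖ψ‖ := by
  rw [liftDual_apply]
  calc ‖ψ.comp (liftPre φ L hL h0 hφ)‖ ≤ ‖ψ‖ * ‖liftPre φ L hL h0 hφ‖ :=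
        ContinuousLinearMap.opNorm_comp_le _ _
    _ ≤ ‖ψ‖ * L := mul_le_mul_of_nonneg_left (norm_liftPre_le φ L hL h0 hφ) (norm_nonneg ψ)
    _ = L * ‖ψ‖ := mul_comm _ _

theorem liftDual_mem (φ : M → LipFree N o') (L : ℝ) (hL : 0 ≤ L) (h0 : φ o = 0)
    (hφ : ∀ x y, ‖φ x - φ y‖ ≤ L * dist x y) {ψ : Lip0 M o →L[ℝ] ℝ}
    (hψ : ψ ∈ lipFreeSubmodule M o) : liftDual φ L hL h0 hφ ψ ∈ lipFreeSubmodule N o' := by
  have h1 : Submodule.span ℝ (Set.range (dirac M o))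
      ≤ Submodule.comap ((liftDual φ L hL h0 hφ :
          (Lip0 M o →L[ℝ] ℝ) →L[ℝ] (Lip0 N o' →L[ℝ] ℝ)) :
          (Lip0 M o →L[ℝ] ℝ) →ₗ[ℝ] (Lip0 N o' →L[ℝ] ℝ)) (lipFreeSubmodule N o') := by
    rw [Submodule.span_le]
    rintro _ ⟨x, rfl⟩
    show liftDual φ L hL h0 hφ (dirac M o x) ∈ lipFreeSubmodule N o'
    rw [liftDual_dirac]
    exact lipFreeIncl_mem _
  have h2 : IsClosed ((Submodule.comap ((liftDual φ L hL h0 hφ :
          (Lip0 M o →L[ℝ] ℝ) →L[ℝ] (Lip0 N o' →L[ℝ] ℝ)) :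
          (Lip0 M o →L[ℝ] ℝ) →ₗ[ℝ] (Lip0 N o' →L[ℝ] ℝ)) (lipFreeSubmodule N o') :
          Submodule ℝ (Lip0 M o →L[ℝ] ℝ)) : Set (Lip0 M o →L[ℝ] ℝ)) :=
    isClosed_lipFreeSubmodule.preimage (liftDual φ L hL h0 hφ).continuous
  exact Submodule.topologicalClosure_minimal _ h1 h2 hψ

/-- **Universal property of the free space.** A map `φ : M → F(N)` with `φ o = 0` which is
`L`-Lipschitz induces a bounded linear operator `F(M) → F(N)`. -/
noncomputable def lift (φ : M → LipFree N o') (L : ℝ) (hL : 0 ≤ L) (h0 : φ o = 0)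
    (hφ : ∀ x y, ‖φ x - φ y‖ ≤ L * dist x y) : LipFree M o →L[ℝ] LipFree N o' :=
  LinearMap.mkContinuous
    { toFun := fun u => ⟨liftDual φ L hL h0 hφ (lipFreeIncl M o u),
        liftDual_mem φ L hL h0 hφ (lipFreeIncl_mem u)⟩
      map_add' := fun u v => lipFreeIncl_injective (by
        show liftDual φ L hL h0 hφ (lipFreeIncl M o (u + v))
          = liftDual φ L hL h0 hφ (lipFreeIncl M o u) + liftDual φ L hL h0 hφ (lipFreeIncl M o v)
        rw [map_add, map_add])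
      map_smul' := fun c u => lipFreeIncl_injective (by
        show liftDual φ L hL h0 hφ (lipFreeIncl M o (c • u))
          = c • liftDual φ L hL h0 hφ (lipFreeIncl M o u)
        rw [map_smul, map_smul]) }
    L (fun u => norm_liftDual_apply_le φ L hL h0 hφ (lipFreeIncl M o u))

theorem norm_lift_le (φ : M → LipFree N o') (L : ℝ) (hL : 0 ≤ L) (h0 : φ o = 0)
    (hφ : ∀ x y, ‖φ x - φ y‖ ≤ L * dist x y) : ‖lift φ L hL h0 hφ‖ ≤ L :=
  LinearMap.mkContinuous_norm_le _ hL _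

theorem lift_diracF (φ : M → LipFree N o') (L : ℝ) (hL : 0 ≤ L) (h0 : φ o = 0)
    (hφ : ∀ x y, ‖φ x - φ y‖ ≤ L * dist x y) (x : M) :
    lift φ L hL h0 hφ (diracF M o x) = φ x :=
  lipFreeIncl_injective (liftDual_dirac φ L hL h0 hφ x)

/-- If a continuous linear map on the free space sends all evaluation functionals into a
finite-dimensional subspace, then it has finite rank. -/
theorem finiteDimensional_range_of_forall_mem {Y : Type w} [NormedAddCommGroup Y]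
    [NormedSpace ℝ Y] (T : LipFree M o →L[ℝ] Y) (V : Submodule ℝ Y) [FiniteDimensional ℝ V]
    (h : ∀ x, T (diracF M o x) ∈ V) :
    FiniteDimensional ℝ (LinearMap.range (T : LipFree M o →ₗ[ℝ] Y)) := by
  have hV : IsClosed (V : Set Y) := V.closed_of_finiteDimensional
  have key : ∀ u, T u ∈ V := by
    intro u
    refine lipFree_induction (P := fun u => T u ∈ V) (hV.preimage T.continuous) (fun c => ?_) u
    rw [Finsupp.sum, map_sum]
    refine Submodule.sum_mem _ fun x _ => ?_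
    rw [map_smul]
    exact Submodule.smul_mem _ _ (h x)
  have hle : LinearMap.range (T : LipFree M o →ₗ[ℝ] Y) ≤ V := by
    rintro _ ⟨u, rfl⟩
    exact key u
  exact Submodule.finiteDimensional_of_le hle

end

end Vale.Agent.H24
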