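import Vale.Agent.H24.LipFree.Approx

/-!
# Finite-range Lipschitz maps and the bounded approximation property

* `hasBAP_of_finite_range`: if every finite subset of `M` is fixed pointwise by an `L`-Lipschitz
  self-map of `M` with finite range, then `F(M)` has the `L`-BAP.
* `radial`: the radial retraction of a normed space onto a ball; it is `2`-Lipschitz.
* `hasBAP_of_coarse_retract`: if a uniformly discrete metric space `M` admits coarsely Lipschitz
  maps `f : M → X`, `g : X → M` into and from a normed space `X` with the BAP such that `g ∘ f`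
  is at bounded distance from the identity of `M`, then `F(M)` has the BAP.
-/

namespace Vale.Agent.H24

universe u v

section Criterion

variable {M : Type u} [MetricSpace M]

/-- If every finite subset of `M` is fixed pointwise by an `L`-Lipschitz self-map of `M` with
finite range, then the free space `F(M)` has the `L`-bounded approximation property. -/
theorem hasBAP_of_finite_range (o : M) (L : ℝ) (hL : 0 ≤ L)
    (h : ∀ F : Finset M, ∃ r : M → M, (Set.range r).Finite ∧
      (∀ x y, dist (r x) (r y) ≤ L * dist x y) ∧ ∀ x ∈ F, r x = x) :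
    HasBAP L (LipFree M o) := by
  classical
  intro C hC ε hε
  obtain ⟨F, hF⟩ := exists_finset_forall_approx C hC L ε hL hε
  obtain ⟨r, hfin, hlip, hfix⟩ := h (insert o F)
  have hro : r o = o := hfix o (Finset.mem_insert_self o F)
  have h0 : (fun x => diracF M o (r x)) o = 0 := by
    show diracF M o (r o) = 0
    rw [hro]
    exact diracF_base
  have hφ : ∀ x y, ‖(fun x => diracF M o (r x)) x - (fun x => diracF M o (r x)) y‖
      ≤ L * dist x y :=
    fun x y => (norm_diracF_sub_le (r x) (r y)).trans (hlip x y)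
  have hTx : ∀ x, lift (fun x => diracF M o (r x)) L hL h0 hφ (diracF M o x)
      = diracF M o (r x) :=
    fun x => lift_diracF (fun x => diracF M o (r x)) L hL h0 hφ x
  have hTn : ‖lift (fun x => diracF M o (r x)) L hL h0 hφ‖ ≤ L :=
    norm_lift_le (fun x => diracF M o (r x)) L hL h0 hφ
  refine ⟨lift (fun x => diracF M o (r x)) L hL h0 hφ, ?_, hTn, ?_⟩
  · have hfd : FiniteDimensional ℝ (Submodule.span ℝ ((diracF M o) '' Set.range r)) :=
      FiniteDimensional.span_of_finite ℝ (hfin.image _)
    refine finiteDimensional_range_of_forall_mem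
      (lift (fun x => diracF M o (r x)) L hL h0 hφ)
      (Submodule.span ℝ ((diracF M o) '' Set.range r)) fun x => ?_
    rw [hTx]
    exact Submodule.subset_span ⟨r x, ⟨x, rfl⟩, rfl⟩
  · refine hF (lift (fun x => diracF M o (r x)) L hL h0 hφ) hTn (fun x hx => ?_)
    rw [hTx, hfix x (Finset.mem_insert_of_mem hx)]

end Criterion

section Radial

variable {X : Type v} [NormedAddCommGroup X] [NormedSpace ℝ X]

/-- The radial retraction of a normed space onto the closed ball of radius `R` about `0`. -/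
noncomputable def radial (R : ℝ) (u : X) : X := (R / max R ‖u‖) • u

theorem radial_of_le {R : ℝ} (hR : 0 < R) {u : X} (hu : ‖u‖ ≤ R) : radial R u = u := by
  unfold radial
  rw [max_eq_left hu, div_self hR.ne', one_smul]

theorem norm_radial_le {R : ℝ} (hR : 0 < R) (u : X) : ‖radial R u‖ ≤ R := by
  unfold radial
  have hs : 0 < max R ‖u‖ := lt_of_lt_of_le hR (le_max_left _ _)
  rw [norm_smul, Real.norm_eq_abs, abs_of_pos (div_pos hR hs), div_mul_eq_mul_div,
    div_le_iff₀ hs]
  exact mul_le_mul_of_nonneg_left (le_max_right _ _) hR.le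

theorem radial_mem {R : ℝ} (E : Submodule ℝ X) {u : X} (hu : u ∈ E) : radial R u ∈ E :=
  E.smul_mem _ hu

/-- The radial retraction is `2`-Lipschitz. -/
theorem norm_radial_sub_le {R : ℝ} (hR : 0 < R) (u v : X) :
    ‖radial R u - radial R v‖ ≤ 2 * ‖u - v‖ := by
  unfold radial
  have hs : R ≤ max R ‖u‖ := le_max_left _ _
  have ht : R ≤ max R ‖v‖ := le_max_left _ _
  have hvt : ‖v‖ ≤ max R ‖v‖ := le_max_right _ _
  have hst : |max R ‖v‖ - max R ‖u‖| ≤ ‖u - v‖ := by
    have h1 : |max ‖v‖ R - max ‖u‖ R| ≤ |‖v‖ - ‖u‖| := abs_max_sub_max_le_abs _ _ _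
    rw [max_comm ‖v‖ R, max_comm ‖u‖ R] at h1
    have h2 : |‖v‖ - ‖u‖| ≤ ‖v - u‖ := abs_norm_sub_norm_le v u
    rw [norm_sub_rev v u] at h2
    exact h1.trans h2
  generalize max R ‖u‖ = s at hs hst
  generalize max R ‖v‖ = t at ht hvt hst
  have hs0 : 0 < s := lt_of_lt_of_le hR hs
  have ht0 : 0 < t := lt_of_lt_of_le hR ht
  have e : (R / s) • u - (R / t) • v = (R / s) • (u - v) + (R / s - R / t) • v := by
    rw [smul_sub, sub_smul]
    abel
  have h1 : ‖(R / s) • (u - v)‖ ≤ ‖u - v‖ := by
    rw [norm_smul, Real.norm_eq_abs, abs_of_pos (div_pos hR hs0)]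
    exact mul_le_of_le_one_left (norm_nonneg _) ((div_le_one hs0).mpr hs)
  have h2 : ‖(R / s - R / t) • v‖ ≤ ‖u - v‖ := by
    have e2 : R / s - R / t = R * (t - s) / (s * t) := by
      field_simp
    rw [norm_smul, Real.norm_eq_abs, e2, abs_div, abs_mul, abs_of_pos hR,
      abs_of_pos (mul_pos hs0 ht0), div_mul_eq_mul_div, div_le_iff₀ (mul_pos hs0 ht0)]
    have h3 : R * ‖v‖ ≤ s * t := mul_le_mul hs hvt (norm_nonneg v) hs0.le
    have h4 : |t - s| * (R * ‖v‖) ≤ |t - s| * (s * t) :=
      mul_le_mul_of_nonneg_left h3 (abs_nonneg _)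
    have h5 : |t - s| * (s * t) ≤ ‖u - v‖ * (s * t) :=
      mul_le_mul_of_nonneg_right hst (mul_pos hs0 ht0).le
    calc R * |t - s| * ‖v‖ = |t - s| * (R * ‖v‖) := by ring
      _ ≤ |t - s| * (s * t) := h4
      _ ≤ ‖u - v‖ * (s * t) := h5
  rw [e]
  calc ‖(R / s) • (u - v) + (R / s - R / t) • v‖
      ≤ ‖(R / s) • (u - v)‖ + ‖(R / s - R / t) • v‖ := norm_add_le _ _
    _ ≤ ‖u - v‖ + ‖u - v‖ := add_le_add h1 h2
    _ = 2 * ‖u - v‖ := by ring

end Radial

section CoarseRetract

variable {M : Type u} [MetricSpace M] {X : Type v} [NormedAddCommGroup X] [NormedSpace ℝ X]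

/-- The finite-range maps behind `hasBAP_of_coarse_retract`: on a finite set `F` the map is the
identity, elsewhere it is `g` applied to a point of a finite net of a compact piece of the range
of a finite-rank operator `T` on `X` which is close to the identity on `f '' F`. -/
theorem exists_finite_range_map (θ A B lam : ℝ) (hθ : 0 < θ) (hA : 0 ≤ A) (hB : 0 ≤ B)
    (hsep : ∀ x y : M, x ≠ y → θ ≤ dist x y) (hX : HasBAP lam X) (f : M → X) (g : X → M)
    (hf : ∀ x y, dist (f x) (f y) ≤ A * dist x y + B)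
    (hg : ∀ u v, dist (g u) (g v) ≤ A * dist u v + B)
    (hgf : ∀ x, dist (g (f x)) x ≤ B) (F : Finset M) :
    ∃ r : M → M, (Set.range r).Finite ∧
      (∀ x y, dist (r x) (r y)
        ≤ (1 + 2 * lam * A ^ 2 + (2 * B + 2 * A + 2 * lam * A * B) / θ) * dist x y) ∧
      ∀ x ∈ F, r x = x := by
  classical
  have hlam : 0 ≤ lam := by
    obtain ⟨T, -, hT, -⟩ := hX ∅ isCompact_empty 1 one_pos
    exact (norm_nonneg T).trans hT
  obtain ⟨T, hTfin, hTnorm, hTapprox⟩ :=
    hX (f '' (F : Set M)) ((F.finite_toSet.image f).isCompact) 1 one_pos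
  have hTF : ∀ x ∈ F, ‖T (f x) - f x‖ < 1 :=
    fun x hx => hTapprox (f x) (Set.mem_image_of_mem f hx)
  have hsum : 0 ≤ ∑ x ∈ F, ‖f x‖ := Finset.sum_nonneg fun _ _ => norm_nonneg _
  have hR0 : 0 < (∑ x ∈ F, ‖f x‖) + 1 := by linarith
  generalize hRdef : (∑ x ∈ F, ‖f x‖) + 1 = R at hR0
  have hRF : ∀ x ∈ F, ‖T (f x)‖ ≤ R := by
    intro x hx
    have h1 : ‖f x‖ ≤ ∑ x ∈ F, ‖f x‖ :=
      Finset.single_le_sum (f := fun x => ‖f x‖) (fun _ _ => norm_nonneg _) hx
    have h2 : ‖T (f x)‖ ≤ ‖T (f x) - f x‖ + ‖f x‖ := by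
      have h3 := norm_add_le (T (f x) - f x) (f x)
      rwa [sub_add_cancel] at h3
    linarith [hTF x hx]
  have hfd : FiniteDimensional ℝ (LinearMap.range (T : X →ₗ[ℝ] X)) := hTfin
  have hK : IsCompact ((Subtype.val : LinearMap.range (T : X →ₗ[ℝ] X) → X) ''
      Metric.closedBall 0 R) :=
    (isCompact_closedBall 0 R).image continuous_subtype_val
  obtain ⟨Z, -, hZfin, hZcover⟩ := hK.finite_cover_balls one_pos
  have hw : ∀ x : M, ∃ z ∈ Z, ‖radial R (T (f x)) - z‖ < 1 := by
    intro x
    have hmemE : radial R (T (f x)) ∈ LinearMap.range (T : X →ₗ[ℝ] X) :=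
      radial_mem _ ⟨f x, rfl⟩
    have hmem : radial R (T (f x)) ∈
        (Subtype.val : LinearMap.range (T : X →ₗ[ℝ] X) → X) '' Metric.closedBall 0 R := by
      refine ⟨⟨radial R (T (f x)), hmemE⟩, ?_, rfl⟩
      rw [mem_closedBall_zero_iff]
      exact norm_radial_le hR0 _
    obtain ⟨z, hz, hzb⟩ := Set.mem_iUnion₂.mp (hZcover hmem)
    exact ⟨z, hz, by rwa [Metric.mem_ball, dist_eq_norm] at hzb⟩
  choose ζ hζZ hζ using hw
  have hwlip : ∀ x y : M, ‖radial R (T (f x)) - radial R (T (f y))‖
      ≤ 2 * (lam * (A * dist x y + B)) := by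
    intro x y
    have h1 := norm_radial_sub_le hR0 (T (f x)) (T (f y))
    have h2 : ‖T (f x) - T (f y)‖ ≤ lam * (A * dist x y + B) := by
      rw [← map_sub]
      calc ‖T (f x - f y)‖ ≤ ‖T‖ * ‖f x - f y‖ := T.le_opNorm _
        _ ≤ lam * (A * dist x y + B) := by
          refine mul_le_mul hTnorm ?_ (norm_nonneg _) hlam
          rw [← dist_eq_norm]
          exact hf x y
    linarith
  have hwF : ∀ x ∈ F, ‖f x - radial R (T (f x))‖ < 1 := by
    intro x hx
    rw [radial_of_le hR0 (hRF x hx), norm_sub_rev]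
    exact hTF x hx
  have hζd : ∀ x y : M, dist (ζ x) (ζ y) ≤ 2 * (lam * (A * dist x y + B)) + 2 := by
    intro x y
    rw [dist_eq_norm]
    have e : ζ x - ζ y = -(radial R (T (f x)) - ζ x)
        + (radial R (T (f x)) - radial R (T (f y))) + (radial R (T (f y)) - ζ y) := by abel
    rw [e]
    have h1 := norm_add₃_le (a := -(radial R (T (f x)) - ζ x))
      (b := radial R (T (f x)) - radial R (T (f y))) (c := radial R (T (f y)) - ζ y)
    rw [norm_neg] at h1
    linarith [hζ x, hζ y, hwlip x y]
  have hζF : ∀ x ∈ F, ∀ y : M, dist (f x) (ζ y) ≤ 2 * (lam * (A * dist x y + B)) + 2 := by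
    intro x hx y
    rw [dist_eq_norm]
    have e : f x - ζ y = (f x - radial R (T (f x)))
        + (radial R (T (f x)) - radial R (T (f y))) + (radial R (T (f y)) - ζ y) := by abel
    rw [e]
    have h1 := norm_add₃_le (a := f x - radial R (T (f x)))
      (b := radial R (T (f x)) - radial R (T (f y))) (c := radial R (T (f y)) - ζ y)
    linarith [hwF x hx, hζ y, hwlip x y]
  refine ⟨fun x => if x ∈ F then x else g (ζ x), ?_, ?_, ?_⟩
  · refine ((F.finite_toSet).union (hZfin.image g)).subset ?_
    rintro _ ⟨x, rfl⟩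
    by_cases hx : x ∈ F
    · left
      show (if x ∈ F then x else g (ζ x)) ∈ (F : Set M)
      rw [if_pos hx]
      exact hx
    · right
      show (if x ∈ F then x else g (ζ x)) ∈ g '' Z
      rw [if_neg hx]
      exact Set.mem_image_of_mem g (hζZ x)
  · intro x y
    show dist (if x ∈ F then x else g (ζ x)) (if y ∈ F then y else g (ζ y)) ≤ _
    rcases eq_or_ne x y with rfl | hxy
    · simp
    · have hd : θ ≤ dist x y := hsep x y hxy
      have hd0 : 0 ≤ dist x y := dist_nonneg
      have hc : 0 ≤ 2 * B + 2 * A + 2 * lam * A * B := by positivity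
      have hcd : 2 * B + 2 * A + 2 * lam * A * B
          ≤ (2 * B + 2 * A + 2 * lam * A * B) / θ * dist x y := by
        calc 2 * B + 2 * A + 2 * lam * A * B
            = (2 * B + 2 * A + 2 * lam * A * B) / θ * θ := by field_simp
          _ ≤ (2 * B + 2 * A + 2 * lam * A * B) / θ * dist x y :=
            mul_le_mul_of_nonneg_left hd (div_nonneg hc hθ.le)
      have hq : 0 ≤ 2 * lam * A ^ 2 * dist x y := by positivity
      have hL : (1 + 2 * lam * A ^ 2 + (2 * B + 2 * A + 2 * lam * A * B) / θ) * dist x y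
          = dist x y + 2 * lam * A ^ 2 * dist x y
            + (2 * B + 2 * A + 2 * lam * A * B) / θ * dist x y := by ring
      rw [hL]
      by_cases hx : x ∈ F <;> by_cases hy : y ∈ F
      · rw [if_pos hx, if_pos hy]
        linarith
      · rw [if_pos hx, if_neg hy]
        have h1 : dist x (g (ζ y)) ≤ dist x (g (f x)) + dist (g (f x)) (g (ζ y)) :=
          dist_triangle _ _ _
        have h2 : dist x (g (f x)) ≤ B := by
          rw [dist_comm]
          exact hgf x
        have h3 := hg (f x) (ζ y)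
        have h5 : A * dist (f x) (ζ y) ≤ A * (2 * (lam * (A * dist x y + B)) + 2) :=
          mul_le_mul_of_nonneg_left (hζF x hx y) hA
        have h6 : A * (2 * (lam * (A * dist x y + B)) + 2)
            = 2 * lam * A ^ 2 * dist x y + 2 * lam * A * B + 2 * A := by ring
        linarith
      · rw [if_neg hx, if_pos hy]
        have h1 : dist (g (ζ x)) y ≤ dist (g (ζ x)) (g (f y)) + dist (g (f y)) y :=
          dist_triangle _ _ _
        have h3 := hg (ζ x) (f y)
        have h4 : dist (ζ x) (f y) ≤ 2 * (lam * (A * dist x y + B)) + 2 := by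
          rw [dist_comm (ζ x) (f y), dist_comm x y]
          exact hζF y hy x
        have h5 : A * dist (ζ x) (f y) ≤ A * (2 * (lam * (A * dist x y + B)) + 2) :=
          mul_le_mul_of_nonneg_left h4 hA
        have h6 : A * (2 * (lam * (A * dist x y + B)) + 2)
            = 2 * lam * A ^ 2 * dist x y + 2 * lam * A * B + 2 * A := by ring
        linarith [hgf y]
      · rw [if_neg hx, if_neg hy]
        have h3 := hg (ζ x) (ζ y)
        have h5 : A * dist (ζ x) (ζ y) ≤ A * (2 * (lam * (A * dist x y + B)) + 2) :=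
          mul_le_mul_of_nonneg_left (hζd x y) hA
        have h6 : A * (2 * (lam * (A * dist x y + B)) + 2)
            = 2 * lam * A ^ 2 * dist x y + 2 * lam * A * B + 2 * A := by ring
        linarith
  · intro x hx
    show (if x ∈ F then x else g (ζ x)) = x
    rw [if_pos hx]

/-- **Coarse retracts of normed spaces with the BAP.** Let `M` be a uniformly discrete metric
space and `X` a normed space with the `lam`-BAP. If there are coarsely Lipschitz maps
`f : M → X` and `g : X → M` such that `g ∘ f` is at bounded distance from the identity of `M`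
(for instance if `M` is quasi-isometric to `X`, or is a net in `X`), then `F(M)` has the BAP,
with an explicit constant. -/
theorem hasBAP_of_coarse_retract (M : Type u) [MetricSpace M] (o : M) (X : Type v)
    [NormedAddCommGroup X] [NormedSpace ℝ X] (θ A B lam : ℝ) (hθ : 0 < θ) (hA : 0 ≤ A)
    (hB : 0 ≤ B) (hsep : ∀ x y : M, x ≠ y → θ ≤ dist x y) (hX : HasBAP lam X)
    (f : M → X) (g : X → M)
    (hf : ∀ x y, dist (f x) (f y) ≤ A * dist x y + B)
    (hg : ∀ u v, dist (g u) (g v) ≤ A * dist u v + B)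
    (hgf : ∀ x, dist (g (f x)) x ≤ B) :
    HasBAP (1 + 2 * lam * A ^ 2 + (2 * B + 2 * A + 2 * lam * A * B) / θ) (LipFree M o) := by
  have hlam : 0 ≤ lam := by
    obtain ⟨T, -, hT, -⟩ := hX ∅ isCompact_empty 1 one_pos
    exact (norm_nonneg T).trans hT
  have hL : 0 ≤ 1 + 2 * lam * A ^ 2 + (2 * B + 2 * A + 2 * lam * A * B) / θ := by positivity
  exact hasBAP_of_finite_range o _ hL
    (fun F => exists_finite_range_map θ A B lam hθ hA hB hsep hX f g hf hg hgf F)

end CoarseRetract

end Vale.Agent.H24
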