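import Vale.Agent.H24.LipFree.Approx

/-!
# Transfer of the bounded approximation property between free spaces

If `M` is uniformly discrete and `f : M → M'`, `g : M' → M` are Lipschitz maps with `g ∘ f` at
bounded distance from the identity, then the BAP passes from `F(M')` to `F(M)`. In particular the
BAP of the free space is a quasi-isometry invariant of uniformly discrete metric spaces.
-/

namespace Vale.Agent.H24

universe u v w

section FiniteRank

variable {X : Type u} [NormedAddCommGroup X] [NormedSpace ℝ X]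
  {Y : Type v} [NormedAddCommGroup Y] [NormedSpace ℝ Y]
  {Z : Type w} [NormedAddCommGroup Z] [NormedSpace ℝ Z]

theorem finiteDimensional_range_comp (A : Y →L[ℝ] Z) (S : Y →L[ℝ] Y) (B : X →L[ℝ] Y)
    (h : FiniteDimensional ℝ (LinearMap.range (S : Y →ₗ[ℝ] Y))) :
    FiniteDimensional ℝ (LinearMap.range ((A.comp (S.comp B) : X →L[ℝ] Z) : X →ₗ[ℝ] Z)) := by
  have hle : LinearMap.range ((A.comp (S.comp B) : X →L[ℝ] Z) : X →ₗ[ℝ] Z)
      ≤ Submodule.map (A : Y →ₗ[ℝ] Z) (LinearMap.range (S : Y →ₗ[ℝ] Y)) := by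
    rintro _ ⟨x, rfl⟩
    exact ⟨S (B x), ⟨B x, rfl⟩, rfl⟩
  exact Submodule.finiteDimensional_of_le hle

theorem finiteDimensional_range_add (T₁ T₂ : X →L[ℝ] Z)
    (h₁ : FiniteDimensional ℝ (LinearMap.range (T₁ : X →ₗ[ℝ] Z)))
    (h₂ : FiniteDimensional ℝ (LinearMap.range (T₂ : X →ₗ[ℝ] Z))) :
    FiniteDimensional ℝ (LinearMap.range ((T₁ + T₂ : X →L[ℝ] Z) : X →ₗ[ℝ] Z)) := by
  have hle : LinearMap.range ((T₁ + T₂ : X →L[ℝ] Z) : X →ₗ[ℝ] Z)
      ≤ LinearMap.range (T₁ : X →ₗ[ℝ] Z) ⊔ LinearMap.range (T₂ : X →ₗ[ℝ] Z) := by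
    rintro _ ⟨x, rfl⟩
    exact Submodule.add_mem_sup ⟨x, rfl⟩ ⟨x, rfl⟩
  exact Submodule.finiteDimensional_of_le hle

end FiniteRank

section

variable {M : Type u} [MetricSpace M] {o : M} {M' : Type v} [MetricSpace M'] {o' : M'}

/-- The bounded operator `F(M) → F(M')` induced by a Lipschitz map `f : M → M'` (which need not
preserve the base points): `δ x ↦ δ (f x) - δ (f o)`. -/
noncomputable def mapF (f : M → M') (L : ℝ) (hL : 0 ≤ L)
    (hf : ∀ x y, dist (f x) (f y) ≤ L * dist x y) : LipFree M o →L[ℝ] LipFree M' o' :=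
  lift (fun x => diracF M' o' (f x) - diracF M' o' (f o)) L hL (sub_self _) (fun x y => by
    have h1 : (diracF M' o' (f x) - diracF M' o' (f o)) - (diracF M' o' (f y) - diracF M' o' (f o))
        = diracF M' o' (f x) - diracF M' o' (f y) := by abel
    rw [h1]
    exact (norm_diracF_sub_le _ _).trans (hf x y))

theorem mapF_diracF (f : M → M') (L : ℝ) (hL : 0 ≤ L)
    (hf : ∀ x y, dist (f x) (f y) ≤ L * dist x y) (x : M) :
    mapF (o := o) (o' := o') f L hL hf (diracF M o x)
      = diracF M' o' (f x) - diracF M' o' (f o) :=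
  lift_diracF _ L hL _ _ x

theorem norm_mapF_le (f : M → M') (L : ℝ) (hL : 0 ≤ L)
    (hf : ∀ x y, dist (f x) (f y) ≤ L * dist x y) :
    ‖mapF (o := o) (o' := o') f L hL hf‖ ≤ L :=
  norm_lift_le _ L hL _ _

/-- **Transfer of the BAP.** Let `M` be uniformly discrete (distinct points at distance at least
`θ`), and let `f : M → M'`, `g : M' → M` be Lipschitz maps with `dist (g (f x)) x ≤ D` for all
`x`. If `F(M')` has the `lam`-BAP, then `F(M)` has the BAP with constant
`Lg * lam * Lf + 4 * D / θ`. -/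
theorem hasBAP_transfer (θ D Lf Lg lam : ℝ) (hθ : 0 < θ) (hLf : 0 ≤ Lf) (hLg : 0 ≤ Lg)
    (hsep : ∀ x y : M, x ≠ y → θ ≤ dist x y) (f : M → M') (g : M' → M)
    (hf : ∀ x y, dist (f x) (f y) ≤ Lf * dist x y)
    (hg : ∀ x y, dist (g x) (g y) ≤ Lg * dist x y)
    (hgf : ∀ x, dist (g (f x)) x ≤ D)
    (h : HasBAP lam (LipFree M' o')) : HasBAP (Lg * lam * Lf + 4 * D / θ) (LipFree M o) := by
  classical
  intro C hC ε hε
  have hD : 0 ≤ D := le_trans dist_nonneg (hgf o)
  have hDθ : 0 ≤ 4 * D / θ := div_nonneg (by linarith) hθ.le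
  have hlam : 0 ≤ lam := by
    obtain ⟨T, -, hT, -⟩ := h ∅ isCompact_empty 1 one_pos
    exact le_trans (norm_nonneg T) hT
  obtain ⟨fh, hfh_def⟩ : ∃ fh : LipFree M o →L[ℝ] LipFree M' o',
      fh = mapF (o := o) (o' := o') f Lf hLf hf := ⟨_, rfl⟩
  obtain ⟨gh, hgh_def⟩ : ∃ gh : LipFree M' o' →L[ℝ] LipFree M o,
      gh = mapF (o := o') (o' := o) g Lg hLg hg := ⟨_, rfl⟩
  have hfh : ‖fh‖ ≤ Lf := by rw [hfh_def]; exact norm_mapF_le f Lf hLf hf
  have hgh : ‖gh‖ ≤ Lg := by rw [hgh_def]; exact norm_mapF_le g Lg hLg hg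
  have hghfh : ∀ x, gh (fh (diracF M o x))
      = diracF M o (g (f x)) - diracF M o (g (f o)) := fun x => by
    rw [hfh_def, mapF_diracF, map_sub, hgh_def, mapF_diracF, mapF_diracF]
    abel
  obtain ⟨e, he_def⟩ : ∃ e : M → LipFree M o,
      e = fun x => diracF M o x - diracF M o (g (f x)) + diracF M o (g (f o)) := ⟨_, rfl⟩
  have he_norm : ∀ x, ‖e x‖ ≤ 2 * D := fun x => by
    rw [he_def]
    have h1 : ‖diracF M o x - diracF M o (g (f x))‖ ≤ D :=
      (norm_diracF_sub_le _ _).trans (by rw [dist_comm]; exact hgf x)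
    have h2 : ‖diracF M o (g (f o))‖ ≤ D := (norm_diracF_le _).trans (hgf o)
    calc ‖diracF M o x - diracF M o (g (f x)) + diracF M o (g (f o))‖
        ≤ ‖diracF M o x - diracF M o (g (f x))‖ + ‖diracF M o (g (f o))‖ := norm_add_le _ _
      _ ≤ 2 * D := by linarith
  have he_o : e o = 0 := by
    rw [he_def]
    show diracF M o o - diracF M o (g (f o)) + diracF M o (g (f o)) = 0
    rw [diracF_base]; abel
  have habel : ∀ p a b : LipFree M o, p - a + b + (a - b) = p := fun p a b => by abel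
  have he_sum : ∀ x, e x + gh (fh (diracF M o x)) = diracF M o x := fun x => by
    rw [hghfh, he_def]; exact habel _ _ _
  -- the truncated error maps
  have hlip : ∀ F : Finset M, ∀ x y : M,
      ‖(if x ∈ F then e x else 0) - (if y ∈ F then e y else 0)‖ ≤ 4 * D / θ * dist x y := by
    intro F x y
    rcases eq_or_ne x y with rfl | hxy
    · rw [sub_self, norm_zero]; exact mul_nonneg hDθ dist_nonneg
    · have h1 : ∀ z : M, ‖(if z ∈ F then e z else 0)‖ ≤ 2 * D := fun z => by
        by_cases hz : z ∈ F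
        · rw [if_pos hz]; exact he_norm z
        · rw [if_neg hz, norm_zero]; linarith
      have h2 : (4 * D : ℝ) ≤ 4 * D / θ * dist x y := by
        calc (4 * D : ℝ) = 4 * D / θ * θ := by field_simp
          _ ≤ 4 * D / θ * dist x y := mul_le_mul_of_nonneg_left (hsep x y hxy) hDθ
      calc ‖(if x ∈ F then e x else 0) - (if y ∈ F then e y else 0)‖
          ≤ ‖(if x ∈ F then e x else 0)‖ + ‖(if y ∈ F then e y else 0)‖ := norm_sub_le _ _
        _ ≤ 4 * D / θ * dist x y := by linarith [h1 x, h1 y]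
  have hzero : ∀ F : Finset M, (if o ∈ F then e o else 0) = (0 : LipFree M o) := fun F => by
    by_cases ho : o ∈ F
    · rw [if_pos ho, he_o]
    · rw [if_neg ho]
  obtain ⟨E, hE_def⟩ : ∃ E : Finset M → (LipFree M o →L[ℝ] LipFree M o),
      E = fun F => lift (fun x => if x ∈ F then e x else 0) (4 * D / θ) hDθ (hzero F) (hlip F) :=
    ⟨_, rfl⟩
  have hE_norm : ∀ F, ‖E F‖ ≤ 4 * D / θ := fun F => by
    rw [hE_def]
    exact norm_lift_le (fun x => if x ∈ F then e x else 0) _ hDθ (hzero F) (hlip F)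
  have hE_dirac : ∀ F x, E F (diracF M o x) = if x ∈ F then e x else 0 := fun F x => by
    rw [hE_def]
    exact lift_diracF (fun x => if x ∈ F then e x else 0) _ hDθ (hzero F) (hlip F) x
  have hE_fin : ∀ F, FiniteDimensional ℝ
      (LinearMap.range ((E F : LipFree M o →L[ℝ] LipFree M o) :
        LipFree M o →ₗ[ℝ] LipFree M o)) := fun F => by
    have : FiniteDimensional ℝ
        (Submodule.span ℝ (e '' (↑F : Set M)) : Submodule ℝ (LipFree M o)) :=
      FiniteDimensional.span_of_finite ℝ ((Finset.finite_toSet _).image _)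
    refine finiteDimensional_range_of_forall_mem (E F) (Submodule.span ℝ (e '' (↑F : Set M)))
      (fun x => ?_)
    rw [hE_dirac]
    by_cases hx : x ∈ F
    · rw [if_pos hx]; exact Submodule.subset_span ⟨x, hx, rfl⟩
    · rw [if_neg hx]; exact Submodule.zero_mem _
  -- choose the finite set
  have hb : 0 ≤ 4 * D / θ + Lg * Lf := add_nonneg hDθ (mul_nonneg hLg hLf)
  obtain ⟨F, hF⟩ := exists_finset_forall_approx C hC (4 * D / θ + Lg * Lf) (ε / 2) hb
    (half_pos hε)
  have hT' : ∀ u ∈ C, ‖(E F + gh.comp fh) u - u‖ < ε / 2 := by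
    refine hF (E F + gh.comp fh) ?_ (fun x hx => ?_)
    · calc ‖E F + gh.comp fh‖ ≤ ‖E F‖ + ‖gh.comp fh‖ := norm_add_le _ _
        _ ≤ 4 * D / θ + ‖gh‖ * ‖fh‖ := add_le_add (hE_norm F) (ContinuousLinearMap.opNorm_comp_le _ _)
        _ ≤ 4 * D / θ + Lg * Lf := by
            have := mul_le_mul hgh hfh (norm_nonneg _) hLg
            linarith
    · show E F (diracF M o x) + gh (fh (diracF M o x)) = diracF M o x
      rw [hE_dirac, if_pos hx, he_sum]
  -- choose the operator on F(M')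
  have hε' : 0 < ε / (2 * (Lg + 1)) := div_pos hε (by linarith)
  obtain ⟨S, hSfin, hSnorm, hSapprox⟩ := h (fh '' C) (hC.image fh.continuous)
    (ε / (2 * (Lg + 1))) hε'
  refine ⟨gh.comp (S.comp fh) + E F,
    finiteDimensional_range_add _ _ (finiteDimensional_range_comp gh S fh hSfin) (hE_fin F),
    ?_, fun u hu => ?_⟩
  · calc ‖gh.comp (S.comp fh) + E F‖ ≤ ‖gh.comp (S.comp fh)‖ + ‖E F‖ := norm_add_le _ _
      _ ≤ ‖gh‖ * (‖S‖ * ‖fh‖) + 4 * D / θ := by
          refine add_le_add ?_ (hE_norm F)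
          exact (ContinuousLinearMap.opNorm_comp_le _ _).trans
            (mul_le_mul_of_nonneg_left (ContinuousLinearMap.opNorm_comp_le _ _) (norm_nonneg _))
      _ ≤ Lg * (lam * Lf) + 4 * D / θ := by
          have h1 : ‖S‖ * ‖fh‖ ≤ lam * Lf := mul_le_mul hSnorm hfh (norm_nonneg _) hlam
          have h2 : ‖gh‖ * (‖S‖ * ‖fh‖) ≤ Lg * (lam * Lf) :=
            mul_le_mul hgh h1 (mul_nonneg (norm_nonneg _) (norm_nonneg _)) hLg
          linarith
      _ = Lg * lam * Lf + 4 * D / θ := by ring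
  · have h1 : (gh.comp (S.comp fh) + E F) u - u
        = gh (S (fh u) - fh u) + ((E F + gh.comp fh) u - u) := by
      simp only [add_apply, ContinuousLinearMap.comp_apply, map_sub]
      abel
    rw [h1]
    have h2 : ‖gh (S (fh u) - fh u)‖ ≤ ε / 2 := by
      have h3 : ‖S (fh u) - fh u‖ < ε / (2 * (Lg + 1)) := hSapprox (fh u) ⟨u, hu, rfl⟩
      calc ‖gh (S (fh u) - fh u)‖ ≤ ‖gh‖ * ‖S (fh u) - fh u‖ := gh.le_opNorm _
        _ ≤ Lg * (ε / (2 * (Lg + 1))) := mul_le_mul hgh h3.le (norm_nonneg _) hLg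
        _ ≤ ε / 2 := by
            rw [mul_div_assoc']
            rw [div_le_iff₀ (by linarith)]
            nlinarith
    calc ‖gh (S (fh u) - fh u) + ((E F + gh.comp fh) u - u)‖
        ≤ ‖gh (S (fh u) - fh u)‖ + ‖(E F + gh.comp fh) u - u‖ := norm_add_le _ _
      _ < ε / 2 + ε / 2 := by linarith [hT' u hu]
      _ = ε := by ring

end

end Vale.Agent.H24

namespace Vale.Agent.H24

universe u v

/-- A coarsely Lipschitz map on a uniformly discrete space is Lipschitz. -/
theorem lipschitz_of_coarse {M : Type u} [MetricSpace M] {M' : Type v} [MetricSpace M']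
    (θ A B : ℝ) (hθ : 0 < θ) (hsep : ∀ x y : M, x ≠ y → θ ≤ dist x y) (f : M → M')
    (hf : ∀ x y, dist (f x) (f y) ≤ A * dist x y + B) (x y : M) :
    dist (f x) (f y) ≤ (|A| + |B| / θ) * dist x y := by
  rcases eq_or_ne x y with rfl | hxy
  · simp
  · have h1 : |B| ≤ |B| / θ * dist x y := by
      calc |B| = |B| / θ * θ := by field_simp
        _ ≤ |B| / θ * dist x y :=
          mul_le_mul_of_nonneg_left (hsep x y hxy) (div_nonneg (abs_nonneg B) hθ.le)
    have h2 : A * dist x y ≤ |A| * dist x y :=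
      mul_le_mul_of_nonneg_right (le_abs_self A) dist_nonneg
    have h3 := hf x y
    have h4 : (|A| + |B| / θ) * dist x y = |A| * dist x y + |B| / θ * dist x y := by ring
    rw [h4]
    linarith [le_abs_self B]

/-- **Quasi-isometry invariance of the BAP.** If two uniformly discrete metric spaces are
quasi-isometric (there are coarsely Lipschitz maps `f`, `g` between them whose compositions are
at bounded distance from the identity maps), then the free space of one has the BAP if and only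
if the free space of the other has. -/
theorem hasBAP_iff_of_quasiIsometry (M : Type u) [MetricSpace M] (M' : Type v) [MetricSpace M']
    (o : M) (o' : M') (θ A B : ℝ) (hθ : 0 < θ)
    (hsep : ∀ x y : M, x ≠ y → θ ≤ dist x y) (hsep' : ∀ x y : M', x ≠ y → θ ≤ dist x y)
    (f : M → M') (g : M' → M)
    (hf : ∀ x y, dist (f x) (f y) ≤ A * dist x y + B)
    (hg : ∀ x y, dist (g x) (g y) ≤ A * dist x y + B)
    (hgf : ∀ x, dist (g (f x)) x ≤ B) (hfg : ∀ y, dist (f (g y)) y ≤ B) :
    (∃ lam : ℝ, HasBAP lam (LipFree M o)) ↔ (∃ lam : ℝ, HasBAP lam (LipFree M' o')) := by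
  have hL : 0 ≤ |A| + |B| / θ := add_nonneg (abs_nonneg A) (div_nonneg (abs_nonneg B) hθ.le)
  have hfL := lipschitz_of_coarse θ A B hθ hsep f hf
  have hgL := lipschitz_of_coarse θ A B hθ hsep' g hg
  constructor
  · rintro ⟨lam, h⟩
    exact ⟨_, hasBAP_transfer θ B (|A| + |B| / θ) (|A| + |B| / θ) lam hθ hL hL hsep' g f hgL hfL
      hfg h⟩
  · rintro ⟨lam, h⟩
    exact ⟨_, hasBAP_transfer θ B (|A| + |B| / θ) (|A| + |B| / θ) lam hθ hL hL hsep f g hfL hgL
      hgf h⟩

end Vale.Agent.H24
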